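import Vale.Agent.P088.R2.H31.EP.Pack
import Vale.Agent.P088.R2.H932.EP.Kk

/-!
# P088, stage 3, zone II: the literal convexity weight

`d.kz q`: the convexity weight `k` of the table; `κ = 16 k` is the number of the certificate
(helper942's `Nm`).
-/

open Set Filter MeasureTheory
open scoped ContDiff Topology Matrix

noncomputable section

namespace Vale.Agent.P088.R2.H31.EP

open Vale.Agent.P088.LR Vale.Agent.P088.HY
open Vale.Agent.P088.R2.H464.Cu (mid dif rq)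
open Vale.Agent.P088.R2.H932.EP (kk mu2)

variable {n : ℕ}

/-- `c₁`. -/
def c₁z : ℝ := 1 / 10 ^ 9

/-- The parameters of `μ₂` (helper606). -/
def Amz : ℝ := 3 / 2 * H313.Mu.dl 1
def Cmz : ℝ := 400
def Cst.t₂ (q : Cst) : ℝ := H313.Mu.sz q.M₀ + 1 + 87 / 20000 * Real.log q.M₀

/-- The convexity weight of zone II: `k = c₁ m (K / (K + m) + μ₂(l(p)) + σ / R)`. -/
def Pk.kz (d : Pk n) (q : Cst) : VV n → ℝ :=
  kk c₁z (q.σ / q.R) (deriv (deriv d.Φ)) (mu2 Amz Cmz q.t₂) (d.u q) (rq (gi d.s₁))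
    (fun z => d.l (mid z))

theorem Pk.kz_eq (d : Pk n) (q : Cst) (z : VV n) : d.kz q z = c₁z * (d.m q z *
    (d.Kf q z / (d.Kf q z + d.m q z) + mu2 Amz Cmz q.t₂ (d.l (mid z)) + q.σ / q.R)) := by
  have e : H932.EP.mm (d.u q) (rq (gi d.s₁)) z = d.m q z := by
    unfold H932.EP.mm Pk.m Pk.E Pk.r2 EP.r2
    ring
  unfold Pk.kz kk H932.EP.kq
  rw [e]
  rfl

end Vale.Agent.P088.R2.H31.EP
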