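import Vale.Agent.P088.R2.H870.Z2.Z2Fin
import Vale.Agent.P088.R2.H591.X.Of

/-!
# P088, stage 3, zone II: the row `ZR2`
-/

open MeasureTheory Set Filter
open scoped ContDiff Topology

noncomputable section

namespace Vale.Agent.P088.R2.H870.Z2

open Vale.Agent.P088.R2.H31.EP
open Vale.Agent.P088.R2.H942.Pk (kz)

variable {n : ℕ}

/-- **Row `ZR2`.** -/
theorem zr2 (hn : 1 ≤ n) {F : H558.G.Lf n} (hF : F.kz = fun q d => kz q d) : H558.G.ZR2 F := by
  refine H591.X.ZR2.of (C := C2z n) (K := K2z n) ⟨C2z_pos n, C2z_nb n⟩ ⟨K2z_pos n, K2z_nb n⟩ ?_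
  intro k hk
  rw [hF]
  exact (zone_z2 hn).mono fun q hq d h => hq d h k hk

end Vale.Agent.P088.R2.H870.Z2
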