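import Vale.Agent.P088.R2.H870.Z2.Glue2
import Vale.Agent.P088.R2.H942.Pk.Kz
import Vale.Agent.P088.R2.H475.Z.FrmD
import Vale.Agent.P088.R2.H867.Z.Cz2
import Vale.Agent.P088.R2.H606.EP.Al

/-!
# P088, stage 3, zone II: the literal functions
-/

open Set Filter
open scoped ContDiff Topology

noncomputable section

namespace Vale.Agent.P088.R2.H870.Z2

open Vale.Agent.P088.LR Vale.Agent.P088.HY Vale.Agent.P088.R2.H31.EP
open Vale.Agent.P088.R2.H464.Cu (mid dif rq)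
open Vale.Agent.P088.R2.H867.EP (Zo)
open Vale.Agent.P088.R2.H942.Pk (kz kE)
open Vale.Agent.P088.R2.H475.Z (frx fry)
open Vale.Agent.P088.R2.H867.Z (Zc sq1 sqp)

variable {n : ℕ}

/-- `g ~ 2 / r²`. -/
def gz (q : Cst) (d : Pk n) (z : VV n) : ℝ := 4 * d.E q z / (1 + d.m q z)

/-- `e ~ 2 E²`. -/
def ez (q : Cst) (d : Pk n) (z : VV n) : ℝ := 3 * d.E q z ^ 2

/-- `ζ`. -/
def zz (L : ℝ) (q : Cst) (d : Pk n) (z : VV n) : ℝ := √(L * gz q d z)

/-- The cost letter of a cut-off. -/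
def ZX (K : ℝ) (χ : VV n → ℝ) (q : Cst) (d : Pk n) : VV n → ℝ :=
  Zc K 1 (rq (gi d.s₁)) (d.E q) (d.N q) (kz q d) χ

/-- The cost letter of the leaf `k`. -/
def Zz (K : ℝ) (k : Zo) (q : Cst) (d : Pk n) : VV n → ℝ := ZX K (d.ch q k) q d

/-- **The functions of zone II** for the cut-off `χ`. -/
def fnX (L K : ℝ) (χ : VV n → ℝ) (q : Cst) (d : Pk n) : Fn (VV n) (Fin n) (Fin n) where
  v₁ := fun _ => 0
  v₂ := fun _ => 0
  W := d.W q
  χ := χ
  k := kz q d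
  g := gz q d
  e := ez q d
  Z := ZX K χ q d
  ζ := zz L q d
  p := frx d.s₁
  q := fry d.s₂
  c := (d.wn q).c₁ (kE q d)
  c' := (d.wn q).c₂ (kE q d)
  C₁ := fun j z => ∑ l, gi d.s₁ z.1 j l * (d.wn q).c₁ (kE q d) l z
  C₂ := fun j z => ∑ l, gi d.s₂ z.2 j l * (d.wn q).c₂ (kE q d) l z

/-- The functions for the leaf `k`. -/
def fnz (L K : ℝ) (k : Zo) (q : Cst) (d : Pk n) : Fn (VV n) (Fin n) (Fin n) :=
  fnX L K (d.ch q k) q d

end Vale.Agent.P088.R2.H870.Z2
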