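import Vale.Agent.P088.R2.H870.Z2.Lit
import Vale.Agent.P088.R2.H341.EP.Ct
import Vale.Agent.P088.R2.H493.EP.CtL
import Vale.Agent.P088.R2.H475.Z.GdP

/-!
# P088, stage 3, zone II: the assembly on the package
-/

open MeasureTheory Set Filter
open scoped ContDiff Topology

noncomputable section

namespace Vale.Agent.P088.R2.H870.Z2

open Vale.Agent.P088.LR Vale.Agent.P088.HY Vale.Agent.P088.R2.H31.EP
open Vale.Agent.P088.R2.H961.GW Vale.Agent.P088.R2.H960.W Vale.Agent.P088.R2.H551.E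
open Vale.Agent.P088.R2.H814.B2 Vale.Agent.P088.R2.H86.Z
open Vale.Agent.P088.R2.H464.Cu (mid dif rq)
open Vale.Agent.P088.R2.H942.Pk (kz kE)
open Vale.Agent.P088.R2.H475.Z (frx fry)
open Vale.Agent.P088.R2.H493.EP (CF)
open Vale.Agent.P088.R2.H165.Tab (MII cII)
open Vale.Agent.P088.R2.H455.E (nu)

variable {n : ℕ} {q : Cst} {d : Pk n} {z : VV n} {χ : VV n → ℝ}

/-- `2 ≤ g r² ≤ 4`. -/
theorem gz_bd (hm : 1 ≤ d.m q z) :
    2 ≤ gz q d z * d.r2 z ∧ gz q d z * d.r2 z ≤ 4 := by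
  have e : gz q d z * d.r2 z = 4 * (d.m q z / (1 + d.m q z)) := by
    unfold gz Pk.m
    ring
  rw [e]
  have h1 : 0 < 1 + d.m q z := by linarith
  constructor
  · have : 1 / 2 ≤ d.m q z / (1 + d.m q z) := by
      rw [le_div_iff₀ h1]; linarith
    linarith
  · have : d.m q z / (1 + d.m q z) ≤ 1 := by
      rw [div_le_one h1]; linarith
    linarith

/-- `2 E² ≤ e ≤ 4 E²`. -/
theorem ez_bd (q : Cst) (d : Pk n) (z : VV n) :
    2 * d.E q z ^ 2 ≤ ez q d z ∧ ez q d z ≤ 4 * d.E q z ^ 2 := by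
  have := sq_nonneg (d.E q z)
  unfold ez
  constructor <;> linarith

/-- **Zone II from the pointwise structures**, on an open set `U`. -/
theorem zone_asm {s : Cs2} {K : ℝ} {U : Set (VV n)} (c : CF q d) (m : H606.EP.Lm n q)
    (so : s.Ok) (hν : (n : ℝ) + 1 ≤ s.ν) (op : IsOpen U)
    (r0 : ∀ z ∈ U, 0 < d.r2 z) (fo : (fnX s.L K χ q d).Ok U s)
    (pt : ∀ z ∈ U, ∃ r' dp' : ℝ, PtII2 d.sx d.sy (fnX s.L K χ q d) s (d.E q z)
      (d.N q z) (√(d.r2 z)) r' dp' z)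
    (kz2 : ∀ z ∈ U, KZ2 d.sx d.sy (frx d.s₁) (fry d.s₂) (d.W q) χ
      (zz s.L q d) (ez q d) (ZX K χ q d) z) :
    Zone d.sx d.sy U 1 0 0 (d.W q) χ ((MII (nu kz q d)).sm fun z => χ z ^ 2)
      (cII (nu kz q d) s.cC (ZX K χ q d)) := by
  have hk : ContinuousOn (kz q d) U := fo.k.continuousOn
  have nc := c.nuct (k := kz) hk
  have h0 : ∀ z ∈ U, (nu kz q d).r2 z ≠ 0 := fun z hz => (r0 z hz).ne'
  have lt : ∀ z ∈ U, Lt d.sx d.sy (frx d.s₁) (fry d.s₂) (gz q d) (ez q d) (nu kz q d) s.A z := by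
    intro z hz
    obtain ⟨r', dp', h⟩ := pt z hz
    have hr : √(d.r2 z) ^ 2 = d.r2 z := Real.sq_sqrt (r0 z hz).le
    exact
      { f₁ := h.mb.f₁
        r2 := r0 z hz
        df := h.mb.df
        g₁ := by have := h.g₁; rwa [hr] at this
        g₂ := by have := h.g₂; rwa [hr] at this
        e₁ := h.e₁
        e₂ := h.e₂ }
  exact zone_glue2 (f := fnX s.L K χ q d) (s := s) (ν₀ := nu kz q d) (U := U)
    (θ := fun _ => 1) (H475.Z.frU c.ok m op) fo so (by rw [Fintype.card_fin]; exact hν)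
    (by rw [Fintype.card_fin]; exact hν) (fun z _ => H475.Z.elX c.ok m z)
    (fun z _ => H475.Z.elY c.ok m z)
    (fun z hz _ => by
      obtain ⟨r', dp', h⟩ := pt z hz
      exact ⟨_, _, _, r', dp', h⟩)
    (fun z hz => kz2 z hz)
    (fun z hz _ => lt z hz) (fun _ _ _ => rfl) (fun _ _ _ => rfl) (fun _ _ _ => rfl)
    (H341.EP.Q8.Ct.sm (fo.χ.continuousOn.pow 2) (H341.EP.ct_MII nc h0))
    (H341.EP.Q8.Ct.sm (continuousOn_const.mul fo.Z.continuousOn) (H341.EP.ct_uf nc h0))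

end Vale.Agent.P088.R2.H870.Z2
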