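import Vale.Agent.P088.R2.H870.Z2.Z2Thm

/-!
# P088, stage 3, zone II: the zone theorems of the leaves `z2a`, `z2b`
-/

open MeasureTheory Set Filter
open scoped ContDiff Topology

noncomputable section

namespace Vale.Agent.P088.R2.H870.Z2

open Vale.Agent.P088.LR Vale.Agent.P088.HY Vale.Agent.P088.R2.H31.EP
open Vale.Agent.P088.R2.H961.GW Vale.Agent.P088.R2.H960.W Vale.Agent.P088.R2.H551.E
open Vale.Agent.P088.R2.H86.Z
open Vale.Agent.P088.R2.H464.Cu (mid dif rq)
open Vale.Agent.P088.R2.H867.EP (Zo)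
open Vale.Agent.P088.R2.H942.Pk (kz kE)
open Vale.Agent.P088.R2.H493.EP (CF)
open Vale.Agent.P088.R2.H165.Tab (MII cII)
open Vale.Agent.P088.R2.H455.E (nu)

variable {n : ℕ} {q : Cst} {d : Pk n} {z : VV n}

/-! ## The weight (after helper493) -/

theorem dl_pos : 0 < H313.Mu.dl 1 := by
  unfold H313.Mu.dl
  positivity

theorem hm_ct {A C t : ℝ} (hA : 0 < A) : Continuous (H932.EP.hm A C t) ∧
    ∀ s, 0 < H932.EP.hm A C t s := by
  constructor
  · exact ((Real.continuous_rpow_const (by norm_num)).div_const _).add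
      (Real.continuous_exp.comp (by fun_prop))
  · intro s
    rcases le_total 0 s with h | h
    · exact H932.EP.hm_pos hA h
    · have h1 := Real.exp_pos (-(C * (s - t)))
      rcases h.lt_or_eq with h | h
      · have h2 : s ^ (5 / 2 : ℝ) = 0 := by
          rw [Real.rpow_def_of_neg h]
          have : (5 / 2 : ℝ) * Real.pi = Real.pi / 2 + 2 * Real.pi := by ring
          rw [this, Real.cos_add_two_pi, Real.cos_pi_div_two, mul_zero]
        unfold H932.EP.hm
        rw [h2, zero_div, zero_add]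
        exact h1
      · exact H932.EP.hm_pos hA h.ge

theorem mu2_ct {A C t : ℝ} (hA : 0 < A) : Continuous (H932.EP.mu2 A C t) ∧
    ∀ s, 0 < H932.EP.mu2 A C t s :=
  ⟨(hm_ct hA).1.inv₀ fun s => ((hm_ct hA).2 s).ne', fun s => inv_pos.2 ((hm_ct hA).2 s)⟩

/-- The weight is continuous, and positive off the diagonal. -/
theorem kz_ct (c : CF q d) : Continuous (kz q d) ∧ ∀ z ∈ CF.Om d, 0 < kz q d z := by
  have hA : 0 < H942.Pk.Am := by
    have := dl_pos
    unfold H942.Pk.Am
    positivity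
  have hS : 0 ≤ q.σ / q.R := (div_pos c.σ0 c.R0).le
  have hu := c.s.u.continuous
  have hl : Continuous fun z : VV n => d.l (mid z) := by
    have h1 : Continuous (mid : VV n → V n) := by
      have e : (mid : VV n → V n) = fun z => (1 / 2 : ℝ) • (z.1 + z.2) := rfl
      rw [e]
      fun_prop
    exact c.ok.l_sm.continuous.comp h1
  have c1 : Continuous (H932.EP.mm (d.u q) (rq (gi d.s₁))) :=
    (continuous_const.mul (Real.continuous_exp.comp hu)).mul c.s.rq.continuous
  have c0 : ∀ z, 0 ≤ H932.EP.mm (d.u q) (rq (gi d.s₁)) z := fun z => by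
    have := c.s.rq0 z
    unfold H932.EP.mm
    positivity
  have c2 : Continuous (H932.EP.kq (deriv (deriv d.Φ)) (d.u q) (rq (gi d.s₁))) := by
    refine c.cK.div (c.cK.add c1) fun z => ?_
    have h1 : 0 < deriv (deriv d.Φ) (d.u q z) := c.ok.top.k0 _
    have h2 := c0 z
    positivity
  have c3 := mu2_ct (A := H942.Pk.Am) (C := 400) (t := H942.Pk.t0 q) hA
  refine ⟨continuous_const.mul (c1.mul ((c2.add (c3.1.comp hl)).add continuous_const)), ?_⟩
  intro z hz
  have h0 : 0 < rq (gi d.s₁) z := by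
    have h1 : 0 < 2 * rq (gi d.s₁) z := hz
    linarith
  exact H932.EP.kk_pos (by norm_num) hS h0 (c.ok.top.k0 _) (c3.2 _).le

/-! ## The theorem -/

/-- **The zone theorems of the leaves `z2a`, `z2b`.** -/
theorem zone_z2 (hn : 1 ≤ n) : EvC fun q => ∀ d : Pk n, PkOk q d → ∀ k ∈ ({.z2a, .z2b} : Set Zo),
    d.Zone q (d.ch q k) ((MII (nu kz q d)).sm fun z => d.ch q k z ^ 2)
      (cII (nu kz q d) (C2z n q) (H867.Z.Zc (K2z n q) 1 (rq (gi d.s₁)) (d.E q) (d.N q)
        (kz q d) (d.ch q k))) := by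
  refine ((zone_chE hn).and ((H493.EP.evCF n).and (H606.EP.evLm hn))).mono ?_
  rintro q ⟨hz, hc, m⟩ d h k hk
  have c := hc d h
  obtain ⟨k1, k2⟩ := kz_ct c
  have hs : ∀ z ∈ tsupport (d.ch q k), z ∈ CF.Om d := by
    rcases hk with rfl | rfl
    · exact fun z hz => c.z2a hz
    · exact fun z hz => c.z2b hz
  have hF₁ : ∀ z, 0 ≤ d.sx.F (d.W q) z := fun z => (H475.Z.elX h m z).F0 (d.W q)
  have hF₂ : ∀ z, 0 ≤ d.sy.F (d.W q) z := fun z => (H475.Z.elY h m z).F0 (d.W q)
  have cZ := c.cZc (K := K2z n q) k1.continuousOn k2 (c.s.ch k) hs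
  refine zone_exhII (ν := nu kz q d) (C := (csz n q).cC) c.ox c.oy contDiffOn_const
    contDiffOn_const c.W.contDiffOn (c.s.ch k)
    { En := c.cE
      r2 := c.cr2
      k := k1
      F₁ := continuousOn_univ.1 (H341.EP.s_F c.ox c.W.contDiffOn).continuousOn
      F₂ := continuousOn_univ.1 (H341.EP.s_F c.oy c.W.contDiffOn).continuousOn }
    c.r2n hF₁ hF₂ ?_ (fun z hz0 => ?_) cZ.1 (fun z => ?_) rfl (hz d h k hk)
  · have h2 := (csz_ok n q).K0
    unfold Cs2.cC
    positivity
  · have hz1 : z ∉ tsupport (d.ch q k) := fun h1 => by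
      have h2 : 0 < d.r2 z := hs z h1
      have h3 : d.r2 z = 0 := hz0
      linarith
    filter_upwards [(isClosed_tsupport _).isOpen_compl.mem_nhds hz1] with w hw
    exact image_eq_zero_of_notMem_tsupport hw
  · by_cases h1 : z ∈ tsupport (d.ch q k)
    · exact H867.Z.Zc_nn (K2z_pos n q).le zero_le_one (c.s.rq0 z) (k2 z (hs z h1)).le
    · have h2 := (H867.Z.sq1_ev (χ := d.ch q k) (z := z) (by
        filter_upwards [(isClosed_tsupport _).isOpen_compl.mem_nhds h1] with w hw
        exact image_eq_zero_of_notMem_tsupport hw)).self_of_nhds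
      have h3 := (H867.Z.sqp_ev (χ := d.ch q k) (z := z) (by
        filter_upwards [(isClosed_tsupport _).isOpen_compl.mem_nhds h1] with w hw
        exact image_eq_zero_of_notMem_tsupport hw)).self_of_nhds
      rw [Zc_0 h2 h3]

theorem C2z_nb (n : ℕ) : NB_ηc (C2z n) := fun _ => rfl

theorem K2z_nb (n : ℕ) : NB_ηc (K2z n) := fun _ => rfl

end Vale.Agent.P088.R2.H870.Z2
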