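import Vale.Agent.P088.R2.H870.Z2.Asm
import Vale.Agent.P088.R2.H606.EP.EnE
import Vale.Agent.P088.R2.H814.B2.KpL
import Vale.Agent.P088.R2.H942.Pk.Sm
import Vale.Agent.P088.R2.H475.Z.Ze
import Vale.Agent.P088.R2.H86.Z.ExhII

/-!
# P088, stage 3, zone II: the zone theorems of the leaves `z2a`, `z2b`
-/

open MeasureTheory Set Filter
open scoped ContDiff Topology

noncomputable section

namespace Vale.Agent.P088.R2.H870.Z2

open Vale.Agent.P088.LR Vale.Agent.P088.HY Vale.Agent.P088.R2.H31.EP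
open Vale.Agent.P088.R2.H961.GW Vale.Agent.P088.R2.H960.W Vale.Agent.P088.R2.H551.E
open Vale.Agent.P088.R2.H814.B2 Vale.Agent.P088.R2.H86.Z
open Vale.Agent.P088.R2.H464.Cu (mid dif rq)
open Vale.Agent.P088.R2.H867.EP (Zo)
open Vale.Agent.P088.R2.H942.Pk (kz kE KtZ KtZ_nb)
open Vale.Agent.P088.R2.H475.Z (frx fry)
open Vale.Agent.P088.R2.H867.Z (sq1 sqp cut_of sq1_sm sqp_sm sq1_nn sqp_nn)
open Vale.Agent.P088.R2.H493.EP (CF)
open Vale.Agent.P088.R2.H165.Tab (MII cII)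
open Vale.Agent.P088.R2.H455.E (nu)
open Vale.Agent.P088.R2.H606.EP (AR AR_one Row Xr Z2 MB_mono evLm)
open Vale.Agent.P088.R2.H814.An (AK Kkb kp_lit kz2_lit)

variable {n : ℕ} {q : Cst} {d : Pk n} {z : VV n} {χ : VV n → ℝ}

/-! ## The constants -/

/-- The constant of the sizes. -/
def Az (n : ℕ) : ℝ := max (AR n) (AK n)

theorem Az_two (n : ℕ) : 2 ≤ Az n := (H814.An.AK_two n).trans (le_max_right _ _)

/-- The constants. -/
def csz (n : ℕ) (q : Cst) : Cs2 := ⟨n + 1, Az n, 8 * Az n, max 0 (KtZ n q)⟩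

theorem csz_ok (n : ℕ) (q : Cst) : (csz n q).Ok :=
  ⟨by have := Az_two n; show 1 ≤ Az n; linarith, le_max_left _ _⟩

theorem csz_nb (n : ℕ) : NB_ηc (csz n) := fun _ => rfl

/-- `K₂` of the cost letter. -/
def K2z (n : ℕ) (q : Cst) : ℝ := 2 * KO2 (n + 1) (Az n) / (csz n q).η +
  cKZ n n (Kkb n q.ph) (4 * (8 * Az n)) + 1

/-- `C₂` of the cost. -/
def C2z (n : ℕ) (q : Cst) : ℝ := Cfe ^ 2 * (csz n q).cC

theorem ηpos (n : ℕ) (q : Cst) : 0 < (csz n q).η := by
  have := (csz_ok n q).K0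
  unfold Cs2.η
  positivity

theorem η'pos (n : ℕ) (q : Cst) : 0 < (csz n q).η' := by
  have := (csz_ok n q).K0
  unfold Cs2.η'
  positivity

theorem Ko_nn (n : ℕ) : 0 ≤ KO2 (n + 1) (Az n) := by
  unfold KO2
  positivity

theorem cK_nn (n : ℕ) (q : Cst) : 0 ≤ cKZ n n (Kkb n q.ph) (4 * (8 * Az n)) := by
  have h1 := H814.An.Kkb_one n q.ph
  have h2 := Az_two n
  unfold cKZ
  positivity

theorem K2z_pos (n : ℕ) (q : Cst) : 0 < K2z n q := by
  have h1 := Ko_nn n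
  have h2 := cK_nn n q
  have h3 := ηpos n q
  unfold K2z
  positivity

theorem C2z_pos (n : ℕ) (q : Cst) : 0 < C2z n q := by
  have h1 := Cfe_one
  have h2 := (csz_ok n q).K0
  unfold C2z Cs2.cC
  positivity

/-! ## The cut-off -/

/-- **`Cut` with the letter of the table.** -/
theorem cut_z (h0 : 0 < rq (gi d.s₁) z) (hk : 0 < kz q d z) {ν A η K : ℝ} (hη : 0 < η)
    (hK : 2 * KO2 ν A / η ≤ K) :
    Cut d.sx d.sy χ (kz q d) (ZX K χ q d) ν A η (d.E q z) (d.N q z) √(d.r2 z)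
      √(2 * rq (gi d.s₁) z * sq1 χ z) √(sqp χ z) z := by
  have h := cut_of (ρ := rq (gi d.s₁)) (k := kz q d) (χ := χ) (EE := d.E q) (NN := d.N q)
    (σ := d.sx) (τ := d.sy) (ν := ν) (A := A) (η := η) (z := z)
    (fun i => one_mul _) (fun i => one_mul _) hη h0 hk
  refine ⟨h.cb, h.d0, h.dp0, h.k0, h.le.trans (mul_le_mul_of_nonneg_right ?_ (by positivity))⟩
  have hS : 0 ≤ 2 * rq (gi d.s₁) z * sq1 χ z *
      (1 + (d.N q z + kz q d z) / (d.E q z * (2 * rq (gi d.s₁) z))) ^ 2 + sqp χ z := by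
    have h1 := sq1_nn χ z
    have h2 := sqp_nn χ z
    positivity
  unfold ZX H867.Z.Zc
  rw [one_mul, div_le_div_iff₀ (by positivity) hk]
  have h3 := mul_le_mul_of_nonneg_right hK (by positivity : 0 ≤ η * kz q d z)
  have e : 2 * KO2 ν A / η * (η * kz q d z) = 2 * KO2 ν A * kz q d z := by field_simp
  rw [e] at h3
  have := mul_le_mul_of_nonneg_right h3 hS
  linarith

/-! ## The points -/

/-- **The pointwise structure.** -/
theorem pt_z {X : ℝ} (R : Row n ((csz n q).η) X q d z)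
    (mb : MB d.sx d.sy (frx d.s₁) (fry d.s₂) 1 (√(d.r2 z)) z)
    (hX : 4 * (((n : ℝ) + 1) ^ 2 * Az n ^ 2) ≤ X)
    (kp : KP d.sx d.sy (frx d.s₁) (fry d.s₂) (fun _ => 0) (fun _ => 0) (d.W q)
      (zz (csz n q).L q d) (kz q d) (ez q d) (csz n q).η' (csz n q).η z)
    (tot : ∀ (Y Y' : Fin n → ℝ) (x y : ℝ),
      4 * (kz q d z * ((∑ i, Y i ^ 2) + ∑ i, Y' i ^ 2)) +
        (csz n q).L₀ * (gz q d z * wq (frx d.s₁) (fry d.s₂) z Y Y') -
        (csz n q).K₁ * (ez q d z * (x + y) ^ 2) -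
        (csz n q).η * (kz q d z * d.sx.F (d.W q) z * x ^ 2 +
          kz q d z * d.sy.F (d.W q) z * y ^ 2) ≤
        8 * (H644.Ch.TH d.sx d.sy (d.W q) z Y Y' +
          tc d.sx ((d.wn q).c₁ (kE q d)) (d.W q) z Y +
          tc d.sy ((d.wn q).c₂ (kE q d)) (d.W q) z Y') +
        H747.S.qf d.sx d.sy 0 0 (d.W q) z Y Y' x y +
        16 * (dF d.sx ((d.wn q).c₁ (kE q d)) (d.W q) z * x ^ 2 +
          dF d.sy ((d.wn q).c₂ (kE q d)) (d.W q) z * y ^ 2)) :
    PtII2 d.sx d.sy (fnX (csz n q).L (K2z n q) χ q d) (csz n q) (d.E q z) (d.N q z)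
      (√(d.r2 z)) √(2 * rq (gi d.s₁) z * sq1 χ z) √(sqp χ z) z := by
  have r0 : 0 < d.r2 z := R.al.r0
  have ρ0 : 0 < rq (gi d.s₁) z := by
    have : d.r2 z = 2 * rq (gi d.s₁) z := rfl
    linarith
  have hX0 : 0 ≤ X := le_trans (by positivity) hX
  have hkX : X ≤ kz q d z := by
    refine le_trans ?_ R.kX
    have : 0 ≤ d.N q z ^ 2 / d.m q z ^ 2 := by positivity
    nlinarith
  have g := gz_bd R.m1
  have e := ez_bd q d z
  exact
    { En0 := R.E0
      r0 := R.r0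
      N0 := R.N0.le
      k1 := hX.trans hkX
      mb := MB_mono mb (by have := Az_two n; show (1 : ℝ) ≤ Az n; linarith) R.r0.le
      fb := R.fbA (le_max_left _ _)
      ct := cut_z ρ0 R.k0 (ηpos n q) (by
        have := cK_nn n q
        show 2 * KO2 ((n : ℝ) + 1) (Az n) / (csz n q).η ≤ K2z n q
        unfold K2z
        linarith)
      wb := R.wbA (le_max_left _ _)
      g₁ := by rw [R.rr]; exact g.1
      g₂ := by rw [R.rr]; exact g.2
      e₁ := e.1
      e₂ := e.2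
      en₁ := R.en₁
      en₂ := R.en₂
      er₁ := R.er₁
      er₂ := R.er₂
      tot := tot
      kp := kp }

/-! ## The functions -/

/-- **The functions are good** on an open set of alive points. -/
theorem fn_ok {L K : ℝ} {s : Cs2} {U : Set (VV n)} (hL : s.L = L) (L0 : 0 < L) (K0 : 0 ≤ K)
    (c : CF q d) (r0 : ∀ z ∈ U, 0 < d.r2 z) (k0 : ∀ z ∈ U, 0 < kz q d z)
    (hχ : ContDiff ℝ ∞ χ) (hk : Sm U (kz q d)) (h1 : ∀ i, Sm U ((d.wn q).c₁ (kE q d) i))
    (h2 : ∀ i, Sm U ((d.wn q).c₂ (kE q d) i)) : (fnX L K χ q d).Ok U s := by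
  have hu : Sm U (d.u q) := c.s.u.contDiffOn
  have hE : Sm U (d.E q) := hu.exp
  have hρ : Sm U (rq (gi d.s₁)) := c.s.rq.contDiffOn
  have hr : Sm U d.r2 := contDiffOn_const.mul hρ
  have hN : Sm U (d.N q) := (c.ok.Φ's.comp c.s.u).contDiffOn
  have hr0 : ∀ z ∈ U, 0 ≤ d.r2 z := fun z hz => (r0 z hz).le
  exact
    { v₁ := contDiffOn_const
      v₂ := contDiffOn_const
      W := c.W.contDiffOn
      χ := hχ.contDiffOn
      k := hk
      g := H475.Z.gII_sm hu hr hr0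
      e := contDiffOn_const.mul (hE.pow 2)
      Z := by
        have a1 : Sm U (sq1 χ) := (sq1_sm hχ).contDiffOn
        have a2 : Sm U (sqp χ) := (sqp_sm hχ).contDiffOn
        refine ContDiffOn.div (contDiffOn_const.mul ((((contDiffOn_const.mul hρ).mul a1).mul
          ((contDiffOn_const.add ((hN.add hk).div (hE.mul (contDiffOn_const.mul hρ))
            fun z hz => ?_)).pow 2)).add a2)) (contDiffOn_const.mul hk) fun z hz => ?_
        · exact mul_ne_zero (Real.exp_pos _).ne' (r0 z hz).ne'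
        · rw [one_mul]
          exact (k0 z hz).ne'
      ζ := fun z hz => (by
        have h3 : ContDiffWithinAt ℝ ∞ (fun z => L * gz q d z) U z :=
          (contDiffOn_const.mul (H475.Z.gII_sm hu hr hr0)) z hz
        exact h3.sqrt (mul_pos L0 (H475.Z.gII_pos (hr0 z hz))).ne')
      c := h1
      c' := h2
      k0 := fun z hz => (k0 z hz).le
      g0 := fun z hz => (H475.Z.gII_pos (u := d.u q) (hr0 z hz)).le
      e0 := fun z _ => by
        show 0 ≤ 3 * d.E q z ^ 2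
        positivity
      Z0 := fun z hz => H867.Z.Zc_nn K0 zero_le_one (c.s.rq0 z) (k0 z hz).le
      L := fun z hz => by
        rw [hL]
        exact H475.Z.zeII_sq L0.le (hr0 z hz) }

/-! ## The theorem -/

/-- The threshold. -/
def Xz (n : ℕ) (_ : Cst) : ℝ := 4 * (((n : ℝ) + 1) ^ 2 * Az n ^ 2)

theorem nb_CB {α : Type*} {f : Cst → α} (h : NB_ηc f) : NB_CB f := fun q => by
  have h1 := h q
  have h2 := h q.b_CB
  have e : q.b_CB.b_ηc = q.b_ηc := rfl
  rw [← h2, e, h1]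

theorem η_nb (n : ℕ) : NB_CB fun q => (csz n q).η := nb_CB fun _ => rfl

theorem η'_nb (n : ℕ) : NB_CB fun q => (csz n q).η' := nb_CB fun _ => rfl

theorem L₀_nb (n : ℕ) : NB_CB fun q => (csz n q).L₀ := nb_CB fun _ => rfl

/-- **Zone II with the cut-offs of the exhaustion.** -/
theorem zone_chE (hn : 1 ≤ n) : EvC fun q => ∀ d : Pk n, PkOk q d → ∀ k ∈ ({.z2a, .z2b} : Set Zo),
    ∀ ε : ℝ, 0 < ε → Zone d.sx d.sy {z | d.ch q k z ≠ 0} 1 0 0 (d.W q) (chE ε (d.ch q k))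
      ((MII (nu kz q d)).sm fun z => chE ε (d.ch q k) z ^ 2)
      (cII (nu kz q d) (csz n q).cC (H867.Z.Zc (K2z n q) 1 (rq (gi d.s₁)) (d.E q) (d.N q)
        (kz q d) (chE ε (d.ch q k)))) := by
  have a1 := H606.EP.row_ev hn (fun q => (csz n q).η) (Xz n) (η_nb n) (fun _ => rfl)
  have a2 := H475.Z.mbE hn
  have a3 := kp_lit (A := Az n) (L := fun _ => 8 * Az n) (η := fun q => (csz n q).η)
    (η' := fun q => (csz n q).η') hn (le_max_right _ _) (fun _ => le_rfl) (ηpos n) (η'pos n)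
    (fun _ => rfl) (η_nb n) (η'_nb n)
  have a4 := kz2_lit (L := fun _ => 8 * Az n) (K := K2z n) hn
    (fun _ => by have := Az_two n; positivity) fun q => by
      have h1 := Ko_nn n
      have h3 := ηpos n q
      have : 0 ≤ 2 * KO2 (n + 1) (Az n) / (csz n q).η := by positivity
      unfold K2z
      linarith
  have a5 := H942.Pk.tot_as hn (fun q => (csz n q).K₁) (fun q => (csz n q).L₀)
    (fun q => (csz n q).η) (L₀_nb n) (η_nb n)
  have a6 := H942.Pk.as_ev hn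
  have a7 := H493.EP.evCF n
  have a8 := evLm hn
  refine (((a1.and a2).and (a3.and a4)).and ((a5.and a6).and (a7.and a8))).mono ?_
  rintro q ⟨⟨⟨h1, h2⟩, h3, h4⟩, ⟨h5, h6⟩, h7, m⟩ d h k hk ε hε
  have c := h7 d h
  obtain ⟨b1, -, -, b4, -, b6, b7⟩ := h6 d h
  have hz2 : ∀ z ∈ {z | d.ch q k z ≠ 0}, d.ch q .z2a z ≠ 0 ∨ d.ch q .z2b z ≠ 0 := by
    intro z hz
    rcases hk with rfl | rfl
    · exact Or.inl hz
    · exact Or.inr hz
  have hR : ∀ z ∈ {z | d.ch q k z ≠ 0}, Row n ((csz n q).η)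
      (Xr n (Xz n) (fun q => (csz n q).η) q) q d z := fun z hz =>
    h1 (ηpos n q) d h z (hz2 z hz)
  have hop : IsOpen {z | d.ch q k z ≠ 0} := isOpen_ne.preimage (c.s.ch k).continuous
  have hsub : {z | d.ch q k z ≠ 0} ⊆ H942.Pk.AS q d := fun z hz => hz2 z hz
  have r0 : ∀ z ∈ {z | d.ch q k z ≠ 0}, 0 < d.r2 z := fun z hz => (hR z hz).al.r0
  have k0 : ∀ z ∈ {z | d.ch q k z ≠ 0}, 0 < kz q d z := fun z hz => (hR z hz).k0
  have hχ : ContDiff ℝ ∞ (chE ε (d.ch q k)) := by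
    rw [← contDiffOn_univ]
    exact chE_sm (c.s.ch k).contDiffOn
  have fo : (fnX (csz n q).L (K2z n q) (chE ε (d.ch q k)) q d).Ok {z | d.ch q k z ≠ 0}
      (csz n q) :=
    fn_ok rfl (by have := Az_two n; show 0 < 8 * Az n; positivity) (K2z_pos n q).le c r0 k0 hχ
      (b4.mono hsub) (fun i => (b6 i).mono hsub) (fun i => (b7 i).mono hsub)
  refine zone_asm c m (csz_ok n q) le_rfl hop r0 fo (fun z hz => ?_) (fun z hz => ?_)
  · refine ⟨_, _, pt_z (hR z hz) (h2 d h z (hz2 z hz)) ?_ (h3 d h z (hz2 z hz)) ?_⟩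
    · exact (le_max_right _ _).trans (le_max_left _ _)
    · have R := hR z hz
      have g := gz_bd R.m1
      have e := ez_bd q d z
      have hL0 : 0 ≤ (csz n q).L₀ := by
        have h8 := (csz_ok n q).K0
        have h9 := Az_two n
        show 0 ≤ ((csz n q).K₁ + 1) * (8 * (8 * Az n)) + 1
        positivity
      exact h5 (le_max_right _ _) hL0 (ηpos n q) d h z (hz2 z hz) (kz q d z) (gz q d z) (ez q d z)
        le_rfl (by have := R.k0; linarith) (by linarith [g.1]) g.2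
        (by nlinarith [e.1, sq_nonneg (d.E q z)])
  · exact h4 d h z (hz2 z hz) _

end Vale.Agent.P088.R2.H870.Z2
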